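import Mathlib

/-! # P248 (Mahler): definitions

`ℝ^ι` is `ι → ℝ` with the product Lebesgue measure `volume` and the Euclidean inner product
`x ⬝ᵥ y = ∑ i, x i * y i`. -/

namespace Vale.Agent.Lib.P248

open MeasureTheory

variable {ι : Type} [Fintype ι]

/-- the polar body `K° = {y : ⟨x, y⟩ ≤ 1 for all x ∈ K}` -/
def polar (K : Set (ι → ℝ)) : Set (ι → ℝ) := {y | ∀ x ∈ K, x ⬝ᵥ y ≤ 1}

/-- origin-symmetric convex body: convex, compact, nonempty interior, `K = -K` -/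
def IsSymBody (K : Set (ι → ℝ)) : Prop :=
  Convex ℝ K ∧ IsCompact K ∧ (interior K).Nonempty ∧ ∀ x ∈ K, -x ∈ K

/-- the volume product `|K| |K°|` -/
noncomputable def volProd (K : Set (ι → ℝ)) : ℝ :=
  (volume K).toReal * (volume (polar K)).toReal

/-- the support function `h_K (y) = sup_{x ∈ K} ⟨x, y⟩` -/
noncomputable def supp (K : Set (ι → ℝ)) (y : ι → ℝ) : ℝ := sSup ((fun x => x ⬝ᵥ y) '' K)

/-- the product body `K × L` in `ℝ^(ι ⊕ κ)` -/
def prodBody {κ : Type} (K : Set (ι → ℝ)) (L : Set (κ → ℝ)) : Set (ι ⊕ κ → ℝ) :=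
  {z | (fun i => z (Sum.inl i)) ∈ K ∧ (fun j => z (Sum.inr j)) ∈ L}

/-- renaming of the coordinates along a bijection `e : ι ≃ κ` -/
def reindex {κ : Type} (e : ι ≃ κ) (K : Set (ι → ℝ)) : Set (κ → ℝ) :=
  {z | (fun i => z (e i)) ∈ K}

end Vale.Agent.Lib.P248
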