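import Vale.Agent.Lib.P248.SupportPos

/-! # `n! |K°| = ∫ exp (- h_K)` -/

namespace Vale.Agent.Lib.P248

open MeasureTheory

variable {ι : Type} [Fintype ι] {K : Set (ι → ℝ)}

/-- `MeasureTheory.measure_lt_one_eq_integral_div_gamma` and `MeasureTheory.measure_le_eq_lt`
with `g = supp K`, `p = 1` -/
theorem laplace [Nonempty ι] (hK : IsSymBody K) :
    (volume (polar K)).toReal * (Fintype.card ι).factorial = ∫ y, Real.exp (-(supp K y)) := by
  have h1 := supp_zero hK
  have h2 := supp_neg hK
  have h3 := supp_add_le hK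
  have h4 : ∀ {x : ι → ℝ}, supp K x = 0 → x = 0 := fun h => supp_eq_zero hK h
  have h5 := supp_smul_le hK
  have e1 := MeasureTheory.measure_le_eq_lt (volume : Measure (ι → ℝ)) h1 h2 h3 h4 h5 1
  have e2 := MeasureTheory.measure_lt_one_eq_integral_div_gamma (volume : Measure (ι → ℝ))
    h1 h2 h3 h4 h5 (p := 1) one_pos
  have hI : 0 ≤ ∫ y, Real.exp (-(supp K y)) := integral_nonneg fun y => (Real.exp_pos _).le
  have hf : (0 : ℝ) < (Fintype.card ι).factorial := by exact_mod_cast Nat.factorial_pos _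
  rw [polar_eq hK, e1, e2]
  simp only [Real.rpow_one, div_one, Module.finrank_fintype_fun_eq_card]
  rw [Real.Gamma_nat_eq_factorial, ENNReal.toReal_ofReal (div_nonneg hI hf.le)]
  field_simp

end Vale.Agent.Lib.P248
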