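import Vale.Agent.Lib.P248.Defs

/-! # The product of two symmetric convex bodies is one -/

namespace Vale.Agent.Lib.P248

open MeasureTheory

variable {ι κ : Type} [Fintype ι] [Fintype κ] {K : Set (ι → ℝ)} {L : Set (κ → ℝ)}

/-- the continuous linear equivalence `ℝ^(ι ⊕ κ) ≃ ℝ^ι × ℝ^κ` -/
noncomputable def splitE (ι κ : Type) : (ι ⊕ κ → ℝ) ≃L[ℝ] (ι → ℝ) × (κ → ℝ) :=
  ContinuousLinearEquiv.sumPiEquivProdPi ℝ ι κ (fun _ => ℝ)

theorem prodBody_eq_preimage (K : Set (ι → ℝ)) (L : Set (κ → ℝ)) :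
    prodBody K L = splitE ι κ ⁻¹' (K ×ˢ L) := by
  ext z
  rfl

/-- `prodBody K L` is the preimage of `K ×ˢ L` under the homeomorphism (and linear equivalence)
`Homeomorph.sumArrowHomeomorphProdArrow` (or `ContinuousLinearEquiv.sumPiEquivProdPi`);
`interior_prod_eq`, `IsCompact.prod`, `Convex.prod`. -/
theorem prodBody_isSymBody (hK : IsSymBody K) (hL : IsSymBody L) :
    IsSymBody (prodBody K L) := by
  obtain ⟨hK1, hK2, hK3, hK4⟩ := hK
  obtain ⟨hL1, hL2, hL3, hL4⟩ := hL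
  refine ⟨?_, ?_, ?_, ?_⟩
  · rw [prodBody_eq_preimage]
    exact (hK1.prod hL1).linear_preimage (splitE ι κ).toLinearEquiv.toLinearMap
  · rw [prodBody_eq_preimage]
    exact (splitE ι κ).toHomeomorph.isCompact_preimage.mpr (hK2.prod hL2)
  · rw [prodBody_eq_preimage]
    have h : interior (splitE ι κ ⁻¹' (K ×ˢ L)) = splitE ι κ ⁻¹' interior (K ×ˢ L) :=
      ((splitE ι κ).toHomeomorph.preimage_interior (K ×ˢ L)).symm
    rw [h, interior_prod_eq]
    obtain ⟨a, ha⟩ := hK3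
    obtain ⟨b, hb⟩ := hL3
    refine ⟨(splitE ι κ).symm (a, b), ?_⟩
    show splitE ι κ ((splitE ι κ).symm (a, b)) ∈ interior K ×ˢ interior L
    rw [ContinuousLinearEquiv.apply_symm_apply]
    exact ⟨ha, hb⟩
  · intro z hz
    exact ⟨hK4 _ hz.1, hL4 _ hz.2⟩

end Vale.Agent.Lib.P248
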