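import Vale.Agent.Lib.P248.Support
import Vale.Agent.Lib.P248.ProdBody

/-! # Volume, support function and Laplace integral of a product body -/

namespace Vale.Agent.Lib.P248

open MeasureTheory

variable {ι κ : Type} [Fintype ι] [Fintype κ] {K : Set (ι → ℝ)} {L : Set (κ → ℝ)}

/-- `volume_measurePreserving_sumPiEquivProdPi`, `MeasurePreserving.measure_preimage_equiv`,
`Measure.prod_prod`, `Measure.volume_eq_prod` -/
theorem volume_prodBody (K : Set (ι → ℝ)) (L : Set (κ → ℝ)) :
    volume (prodBody K L) = volume K * volume L := by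
  have h := volume_measurePreserving_sumPiEquivProdPi (fun _ : ι ⊕ κ => ℝ)
  have e : prodBody K L = (MeasurableEquiv.sumPiEquivProdPi (fun _ : ι ⊕ κ => ℝ)) ⁻¹' (K ×ˢ L) := by
    ext z
    rfl
  rw [e, h.measure_preimage_equiv, Measure.volume_eq_prod, Measure.prod_prod]

/-- `Fintype.sum_sum_type`; `≤` by `supp_le` and `le_supp`; `≥`: for `x ∈ K`, `y ∈ L` the point
`Sum.elim x y` lies in the product, take the supremum first in `x`, then in `y`. -/
theorem supp_prodBody (hK : IsSymBody K) (hL : IsSymBody L) (z : ι ⊕ κ → ℝ) :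
    supp (prodBody K L) z
      = supp K (fun i => z (Sum.inl i)) + supp L (fun j => z (Sum.inr j)) := by
  have hP := prodBody_isSymBody hK hL
  apply le_antisymm
  · apply supp_le hP
    intro w hw
    have e : w ⬝ᵥ z = (fun i => w (Sum.inl i)) ⬝ᵥ (fun i => z (Sum.inl i))
        + (fun j => w (Sum.inr j)) ⬝ᵥ (fun j => z (Sum.inr j)) := by
      simp only [dotProduct, Fintype.sum_sum_type]
    rw [e]
    exact add_le_add (le_supp hK hw.1 _) (le_supp hL hw.2 _)
  · have key : ∀ x ∈ K, ∀ y ∈ L, x ⬝ᵥ (fun i => z (Sum.inl i)) + y ⬝ᵥ (fun j => z (Sum.inr j))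
        ≤ supp (prodBody K L) z := by
      intro x hx y hy
      have hm : Sum.elim x y ∈ prodBody K L := ⟨hx, hy⟩
      have := le_supp hP hm z
      simpa only [dotProduct, Fintype.sum_sum_type, Sum.elim_inl, Sum.elim_inr] using this
    have h1 : supp K (fun i => z (Sum.inl i))
        ≤ supp (prodBody K L) z - supp L (fun j => z (Sum.inr j)) := by
      apply supp_le hK
      intro x hx
      have h2 : supp L (fun j => z (Sum.inr j))
          ≤ supp (prodBody K L) z - x ⬝ᵥ (fun i => z (Sum.inl i)) := by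
        apply supp_le hL
        intro y hy
        have := key x hx y hy
        linarith
      linarith
    linarith

/-- `supp_prodBody`, `Real.exp_add`, `MeasurePreserving.integral_comp'` for
`MeasurableEquiv.sumPiEquivProdPi`, `integral_prod_mul` -/
theorem laplace_prodBody (hK : IsSymBody K) (hL : IsSymBody L) :
    ∫ z, Real.exp (-(supp (prodBody K L) z))
      = (∫ x, Real.exp (-(supp K x))) * ∫ y, Real.exp (-(supp L y)) := by
  have h := volume_measurePreserving_sumPiEquivProdPi (fun _ : ι ⊕ κ => ℝ)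
  have e : (fun z : ι ⊕ κ → ℝ => Real.exp (-(supp (prodBody K L) z)))
      = fun z => (fun p : (ι → ℝ) × (κ → ℝ) => Real.exp (-(supp K p.1)) * Real.exp (-(supp L p.2)))
          (MeasurableEquiv.sumPiEquivProdPi (fun _ : ι ⊕ κ => ℝ) z) := by
    funext z
    rw [supp_prodBody hK hL, neg_add, Real.exp_add]
    rfl
  rw [e]
  have h2 := h.integral_comp'
    (fun p : (ι → ℝ) × (κ → ℝ) => Real.exp (-(supp K p.1)) * Real.exp (-(supp L p.2)))
  refine h2.trans ?_
  rw [Measure.volume_eq_prod]
  exact integral_prod_mul (fun x => Real.exp (-(supp K x))) (fun y => Real.exp (-(supp L y)))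

end Vale.Agent.Lib.P248
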