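import Vale.Agent.Lib.P248.Defs

/-! # Renaming the coordinates changes nothing -/

namespace Vale.Agent.Lib.P248

open MeasureTheory

variable {ι κ : Type} [Fintype ι] [Fintype κ] {K : Set (ι → ℝ)}

/-- the continuous linear equivalence `z ↦ z ∘ e` -/
noncomputable def reCLE (e : ι ≃ κ) : (κ → ℝ) ≃L[ℝ] (ι → ℝ) :=
  (LinearEquiv.funCongrLeft ℝ ℝ e).toContinuousLinearEquiv

theorem reCLE_apply (e : ι ≃ κ) (z : κ → ℝ) : reCLE e z = fun i => z (e i) := by
  funext i
  simp [reCLE, LinearEquiv.funCongrLeft_apply, LinearMap.funLeft_apply]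

theorem reindex_eq_preimage (e : ι ≃ κ) (K : Set (ι → ℝ)) :
    reindex e K = reCLE e ⁻¹' K := by
  ext z
  simp only [reindex, Set.mem_setOf_eq, Set.mem_preimage, reCLE_apply]

/-- `reindex e K` is the preimage of `K` under the homeomorphism / linear equivalence
`z ↦ z ∘ e` (`Homeomorph.piCongrLeft`, `LinearEquiv.funCongrLeft`, ...) -/
theorem reindex_isSymBody (e : ι ≃ κ) (hK : IsSymBody K) : IsSymBody (reindex e K) := by
  obtain ⟨h1, h2, h3, h4⟩ := hK
  refine ⟨?_, ?_, ?_, ?_⟩
  · rw [reindex_eq_preimage]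
    exact h1.linear_preimage (reCLE e).toLinearEquiv.toLinearMap
  · rw [reindex_eq_preimage]
    exact (reCLE e).toHomeomorph.isCompact_preimage.2 h2
  · rw [reindex_eq_preimage]
    have := (reCLE e).toHomeomorph.preimage_interior K
    have h5 : interior (reCLE e ⁻¹' K) = reCLE e ⁻¹' interior K := this.symm
    rw [h5]
    exact h3.preimage (reCLE e).surjective
  · intro x hx
    have : (fun i => (-x) (e i)) = -(fun i => x (e i)) := by
      funext i
      simp
    show (fun i => (-x) (e i)) ∈ K
    rw [this]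
    exact h4 _ hx

/-- `volume_measurePreserving_piCongrLeft` (or `measurePreserving_arrowCongr'`) and
`MeasurePreserving.measure_preimage_equiv` -/
theorem volume_reindex (e : ι ≃ κ) (K : Set (ι → ℝ)) : volume (reindex e K) = volume K := by
  have h := (volume_measurePreserving_piCongrLeft (fun _ : κ => ℝ) e).symm
  have h2 := h.measure_preimage_equiv K
  rw [← h2]
  congr 1

/-- `Equiv.sum_comp` -/
theorem polar_reindex (e : ι ≃ κ) (K : Set (ι → ℝ)) :
    polar (reindex e K) = reindex e (polar K) := by
  ext y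
  simp only [polar, reindex, Set.mem_setOf_eq]
  constructor
  · intro h x hx
    have h1 := h (fun j => x (e.symm j)) (by simpa using hx)
    have h2 : (fun j => x (e.symm j)) ⬝ᵥ y = x ⬝ᵥ (fun i => y (e i)) := by
      simp only [dotProduct]
      rw [← Equiv.sum_comp e]
      simp
    rw [← h2]
    exact h1
  · intro h x hx
    have h1 := h _ hx
    have h2 : (fun i => x (e i)) ⬝ᵥ (fun i => y (e i)) = x ⬝ᵥ y := by
      simp only [dotProduct]
      exact Equiv.sum_comp e (fun j => x j * y j)
    rw [← h2]
    exact h1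

theorem volProd_reindex (e : ι ≃ κ) (K : Set (ι → ℝ)) : volProd (reindex e K) = volProd K := by
  unfold volProd
  rw [polar_reindex, volume_reindex, volume_reindex]

end Vale.Agent.Lib.P248
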