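import Vale.Agent.Lib.P248.Laplace
import Vale.Agent.Lib.P248.ProdVol
import Vale.Agent.Lib.P248.Reindex

/-! # Multiplicativity of the normalised volume product and the tensor-power argument -/

namespace Vale.Agent.Lib.P248

open MeasureTheory

variable {ι κ : Type} [Fintype ι] [Fintype κ] {K : Set (ι → ℝ)} {L : Set (κ → ℝ)}

/-- the normalised volume product `n! |K| |K°| / 4 ^ n` -/
noncomputable def ratio (K : Set (ι → ℝ)) : ℝ :=
  volProd K * (Fintype.card ι).factorial / 4 ^ Fintype.card ι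

theorem ratio_nonneg (K : Set (ι → ℝ)) : 0 ≤ ratio K := by
  unfold ratio volProd
  positivity

theorem ratio_reindex (e : ι ≃ κ) (K : Set (ι → ℝ)) : ratio (reindex e K) = ratio K := by
  unfold ratio
  rw [volProd_reindex, Fintype.card_congr e]

theorem ratio_prod [Nonempty ι] [Nonempty κ] (hK : IsSymBody K) (hL : IsSymBody L) :
    ratio (prodBody K L) = ratio K * ratio L := by
  have hKL := prodBody_isSymBody hK hL
  have a := laplace hK
  have b := laplace hL
  have c := laplace hKL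
  rw [laplace_prodBody hK hL, ← a, ← b, Fintype.card_sum] at c
  unfold ratio volProd
  rw [volume_prodBody, ENNReal.toReal_mul, Fintype.card_sum, pow_add, mul_assoc _ _
    (((Fintype.card ι + Fintype.card κ).factorial : ℕ) : ℝ), c]
  ring

theorem exists_power {n : ℕ} (hn : 1 ≤ n) (K : Set (Fin n → ℝ)) (hK : IsSymBody K) (m : ℕ)
    (hm : 1 ≤ m) : ∃ M : Set (Fin (m * n) → ℝ), IsSymBody M ∧ ratio M = ratio K ^ m := by
  induction m, hm using Nat.le_induction with
  | base =>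
    refine ⟨reindex (finCongr (by simp)) K, reindex_isSymBody _ hK, ?_⟩
    rw [ratio_reindex, pow_one]
  | succ m hm ih =>
    obtain ⟨M, hM, hr⟩ := ih
    have h1 : 0 < m * n := Nat.mul_pos hm hn
    have : Nonempty (Fin (m * n)) := ⟨⟨0, h1⟩⟩
    have : Nonempty (Fin n) := ⟨⟨0, hn⟩⟩
    refine ⟨reindex (finSumFinEquiv.trans (finCongr (by ring))) (prodBody M K),
      reindex_isSymBody _ (prodBody_isSymBody hM hK), ?_⟩
    rw [ratio_reindex, ratio_prod hM hK, hr, pow_succ]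

theorem one_le_ratio (c : ℕ → ℝ)
    (hc : ∀ θ : ℝ, 0 < θ → θ < 1 → ∀ᶠ N in Filter.atTop, θ ^ N ≤ c N)
    (H : ∀ (n : ℕ) (K : Set (Fin n → ℝ)), 1 ≤ n → IsSymBody K → c n ≤ ratio K)
    (n : ℕ) (K : Set (Fin n → ℝ)) (hn : 1 ≤ n) (hK : IsSymBody K) : 1 ≤ ratio K := by
  by_contra hlt
  rw [not_le] at hlt
  have h0 := ratio_nonneg K
  obtain ⟨ρ, hρ⟩ : ∃ ρ : ℝ, ρ = ratio K := ⟨_, rfl⟩
  rw [← hρ] at hlt h0
  have hnr : (1 : ℝ) ≤ n := by exact_mod_cast hn
  obtain ⟨x, hx⟩ : ∃ x : ℝ, x = (1 - ρ) / (2 * n) := ⟨_, rfl⟩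
  have hx0 : 0 < x := by rw [hx]; apply div_pos <;> linarith
  have hnx : n * x = (1 - ρ) / 2 := by rw [hx]; field_simp
  have hx1 : x ≤ 1 / 2 := by nlinarith
  have hθ : ρ < (1 - x) ^ n := by
    have := one_add_mul_le_pow (a := -x) (by linarith) n
    have h2 : (1 + -x) = 1 - x := by ring
    rw [h2] at this
    nlinarith
  obtain ⟨N0, hN0⟩ := Filter.eventually_atTop.mp (hc (1 - x) (by linarith) (by linarith))
  obtain ⟨M, hM, hr⟩ := exists_power hn K hK (N0 + 1) (by omega)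
  have hge : N0 ≤ (N0 + 1) * n := by nlinarith
  have hpos : 1 ≤ (N0 + 1) * n := by nlinarith
  have e1 := hN0 _ hge
  have e2 := H _ M hpos hM
  rw [hr, ← hρ] at e2
  have e3 : ρ ^ (N0 + 1) < ((1 - x) ^ n) ^ (N0 + 1) := pow_lt_pow_left₀ hθ h0 (by omega)
  rw [← pow_mul, mul_comm n] at e3
  linarith

end Vale.Agent.Lib.P248
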