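import Vale.Agent.Lib.P248.Defs

/-! # The support function of a symmetric convex body is a norm -/

namespace Vale.Agent.Lib.P248

open MeasureTheory

variable {ι : Type} [Fintype ι] {K : Set (ι → ℝ)}

theorem continuous_dot_right (y : ι → ℝ) : Continuous (fun x : ι → ℝ => x ⬝ᵥ y) := by
  unfold dotProduct
  fun_prop

theorem IsSymBody.nonempty (hK : IsSymBody K) : K.Nonempty :=
  hK.2.2.1.mono interior_subset

/-- `IsCompact.bddAbove_image` (the map `x ↦ x ⬝ᵥ y` is continuous) and `le_csSup` -/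
theorem le_supp (hK : IsSymBody K) {x : ι → ℝ} (hx : x ∈ K) (y : ι → ℝ) :
    x ⬝ᵥ y ≤ supp K y := by
  unfold supp
  exact le_csSup (hK.2.1.bddAbove_image (continuous_dot_right y).continuousOn)
    (Set.mem_image_of_mem _ hx)

/-- `csSup_le`; `K` is nonempty -/
theorem supp_le (hK : IsSymBody K) {y : ι → ℝ} {a : ℝ} (h : ∀ x ∈ K, x ⬝ᵥ y ≤ a) :
    supp K y ≤ a := by
  unfold supp
  refine csSup_le (hK.nonempty.image _) ?_
  rintro _ ⟨x, hx, rfl⟩
  exact h x hx

theorem supp_zero (hK : IsSymBody K) : supp K 0 = 0 := by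
  obtain ⟨x, hx⟩ := hK.nonempty
  apply le_antisymm
  · exact supp_le hK (fun x _ => by simp)
  · have := le_supp hK hx 0
    simpa using this

theorem supp_neg (hK : IsSymBody K) (y : ι → ℝ) : supp K (-y) = supp K y := by
  apply le_antisymm
  · refine supp_le hK (fun x hx => ?_)
    have := le_supp hK (hK.2.2.2 x hx) y
    simpa [dotProduct_neg, neg_dotProduct] using this
  · refine supp_le hK (fun x hx => ?_)
    have := le_supp hK (hK.2.2.2 x hx) (-y)
    simpa [dotProduct_neg, neg_dotProduct] using this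

theorem supp_add_le (hK : IsSymBody K) (y z : ι → ℝ) :
    supp K (y + z) ≤ supp K y + supp K z := by
  refine supp_le hK (fun x hx => ?_)
  rw [dotProduct_add]
  exact add_le_add (le_supp hK hx y) (le_supp hK hx z)

/-- for `r < 0` use `x ⬝ᵥ (r • y) = |r| * ((-x) ⬝ᵥ y)` and `-x ∈ K` -/
theorem supp_smul_le (hK : IsSymBody K) (r : ℝ) (y : ι → ℝ) :
    supp K (r • y) ≤ |r| * supp K y := by
  refine supp_le hK (fun x hx => ?_)
  rw [dotProduct_smul, smul_eq_mul]
  rcases le_total 0 r with hr | hr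
  · rw [abs_of_nonneg hr]
    exact mul_le_mul_of_nonneg_left (le_supp hK hx y) hr
  · rw [abs_of_nonpos hr]
    have h1 := le_supp hK (hK.2.2.2 x hx) y
    rw [neg_dotProduct] at h1
    nlinarith

theorem polar_eq (hK : IsSymBody K) : polar K = {y | supp K y ≤ 1} := by
  ext y
  constructor
  · intro hy
    exact supp_le hK hy
  · intro hy x hx
    exact le_trans (le_supp hK hx y) hy

end Vale.Agent.Lib.P248
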