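import Vale.Agent.Lib.P248.Support

/-! # The support function of a symmetric convex body vanishes only at the origin -/

namespace Vale.Agent.Lib.P248

open MeasureTheory

variable {ι : Type} [Fintype ι] {K : Set (ι → ℝ)}

/-- if `x₀ ∈ interior K` then `-x₀ ∈ interior K` (negation is a homeomorphism mapping `K` onto
`K`), the interior of a convex set is convex (`Convex.interior`), `0` is the midpoint. -/
theorem zero_mem_interior (hK : IsSymBody K) : (0 : ι → ℝ) ∈ interior K := by
  obtain ⟨hconv, -, ⟨x₀, hx₀⟩, hsymm⟩ := hK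
  have hneg : (Homeomorph.neg (ι → ℝ)) ⁻¹' K = K := by
    ext x
    constructor
    · intro hx
      have := hsymm (-x) hx
      simpa using this
    · intro hx
      exact hsymm x hx
  have h1 : -x₀ ∈ interior K := by
    have h2 : x₀ ∈ (Homeomorph.neg (ι → ℝ)) ⁻¹' interior K := by
      rw [Homeomorph.preimage_interior, hneg]
      exact hx₀
    exact h2
  have h2 := hconv.interior hx₀ h1 (by norm_num : (0 : ℝ) ≤ 1 / 2)
    (by norm_num : (0 : ℝ) ≤ 1 / 2) (by norm_num)
  simpa using h2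

/-- `t • y ∈ K` for some `t > 0` (as `0 ∈ interior K`), so `t * (y ⬝ᵥ y) ≤ supp K y = 0` -/
theorem supp_eq_zero (hK : IsSymBody K) {y : ι → ℝ} (h : supp K y = 0) : y = 0 := by
  by_contra hy
  have h0 := zero_mem_interior hK
  rw [mem_interior_iff_mem_nhds, Metric.mem_nhds_iff] at h0
  obtain ⟨δ, hδ, hball⟩ := h0
  have hny : 0 < ‖y‖ := norm_pos_iff.mpr hy
  have ht0 : 0 < δ / (2 * ‖y‖) := by positivity
  have hmem : (δ / (2 * ‖y‖)) • y ∈ K := by
    apply hball
    rw [mem_ball_zero_iff, norm_smul, Real.norm_eq_abs, abs_of_pos ht0]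
    have : δ / (2 * ‖y‖) * ‖y‖ = δ / 2 := by field_simp
    rw [this]
    linarith
  have h1 := le_supp hK hmem y
  rw [h, smul_dotProduct, smul_eq_mul] at h1
  have h2 : 0 ≤ y ⬝ᵥ y := Finset.sum_nonneg (fun i _ => mul_self_nonneg (y i))
  have h3 : y ⬝ᵥ y = 0 := by
    by_contra hne
    have h4 : 0 < y ⬝ᵥ y := lt_of_le_of_ne h2 (Ne.symm hne)
    have := mul_pos ht0 h4
    linarith
  exact hy (dotProduct_self_eq_zero.mp h3)

end Vale.Agent.Lib.P248
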